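import Vale.Agent.Lib.PCP.Bilin.Hyper

/-!
The expansion theorem for the rank one walk on the bilinear scheme (Khot, Minzer and Safra in the
form of the degree two short code): global sets expand.
-/

set_option linter.unusedSectionVars false

namespace Vale.Agent.Lib.PCP.Bilin

open Finset Matrix
open scoped BigOperators

variable {m n : Type} [Fintype m] [Fintype n] [DecidableEq m] [DecidableEq n]

/-- The bilinear form of the rank one walk. -/
theorem walk_eq (f g : Matrix m n F → ℝ) :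
    𝔼 A, 𝔼 a : m → F, 𝔼 b : n → F, f A * g (A + vecMulVec a b) =
      ∑ X, (1 / 2) ^ X.rank * (coef f X * coef g X) := by
  rw [expect_comm]
  have h1 : ∀ a : m → F, 𝔼 A, 𝔼 b : n → F, f A * g (A + vecMulVec a b) =
      𝔼 b : n → F, ∑ X, coef f X * coef g X * ch X (vecMulVec a b) := by
    intro a
    rw [expect_comm]
    refine expect_congr rfl fun b _ => ?_
    rw [plancherel f (fun A => g (A + vecMulVec a b))]
    simp only [coef_translate, mul_assoc]
  rw [expect_congr rfl fun a _ => h1 a]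
  simp only [expect_sum_comm, ← mul_expect, expect_ch_vecMulVec]
  exact sum_congr rfl fun X _ => mul_comm _ _

theorem walk_le_levels (r : ℕ) (f : Matrix m n F → ℝ) :
    𝔼 A, 𝔼 a : m → F, 𝔼 b : n → F, f A * f (A + vecMulVec a b) ≤
      ∑ d ∈ range r, 𝔼 A, lev d f A ^ 2 + (1 / 2) ^ r * 𝔼 A, f A ^ 2 := by
  rw [walk_eq]
  simp only [← parseval]
  rw [sum_comm, mul_sum, ← sum_add_distrib]
  refine sum_le_sum fun X _ => ?_
  have h1 : ∑ d ∈ range r, coef (lev d f) X ^ 2 = if X.rank < r then coef f X ^ 2 else 0 := by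
    simp only [coef_lev, ite_pow, ne_eq, OfNat.ofNat_ne_zero, not_false_eq_true, zero_pow]
    rw [sum_ite_eq]
    simp only [mem_range]
  rw [h1, ← sq]
  split_ifs with h
  · have h2 : ((1 : ℝ) / 2) ^ X.rank ≤ 1 := pow_le_one₀ (by norm_num) (by norm_num)
    have h3 : 0 ≤ (1 / 2) ^ r * coef f X ^ 2 := by positivity
    nlinarith [sq_nonneg (coef f X)]
  · rw [zero_add]
    exact mul_le_mul_of_nonneg_right
      (pow_le_pow_of_le_one (by norm_num) (by norm_num) (not_lt.1 h)) (sq_nonneg _)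

/-- Expansion for bounded global functions. -/
theorem expansion_glob {η : ℝ} (hη : 0 < η) : ∃ (r : ℕ) (ε : ℝ), 0 < ε ∧
    ∀ (m n : Type) [Fintype m] [Fintype n] [DecidableEq m] [DecidableEq n]
      (f : Matrix m n F → ℝ), (∀ A, |f A| ≤ 1) → Glob r ε f →
      𝔼 A, 𝔼 a : m → F, 𝔼 b : n → F, f A * f (A + vecMulVec a b) ≤ η * 𝔼 A, |f A| := by
  obtain ⟨r, hr⟩ := exists_pow_lt_of_lt_one (half_pos hη) (by norm_num : (1 : ℝ) / 2 < 1)
  choose K hK H using level_ineq
  set θ : ℝ := η / (2 * (r + 1)) with hθ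
  have hθ0 : 0 < θ := by positivity
  set K0 : ℝ := ∑ d ∈ range r, K d + 1 with hK0
  have hK0' : 0 < K0 := by
    have := sum_nonneg (s := range r) fun d _ => hK d
    linarith
  refine ⟨r, θ ^ 3 / K0, by positivity, fun m n _ _ _ _ f hb hf => ?_⟩
  set μ := 𝔼 A, |f A| with hμ
  have hμ0 : 0 ≤ μ := expect_nonneg fun _ _ => abs_nonneg _
  have h1 : ∀ d ∈ range r, 𝔼 A, lev d f A ^ 2 ≤ θ * μ := by
    intro d hd
    have h2 := H d m n f _ hb (hf.anti (mem_range.1 hd).le)
    have h3 : K d ≤ K0 := by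
      have := single_le_sum (f := K) (fun d _ => hK d) hd
      linarith
    have h4 : K d * (θ ^ 3 / K0) ≤ θ ^ 3 := by
      rw [← mul_div_assoc, div_le_iff₀ hK0', mul_comm]
      exact mul_le_mul_of_nonneg_left h3 (by positivity)
    refine le_of_pow_le_pow_left₀ (n := 3) (by norm_num) (by positivity) (h2.trans ?_)
    rw [mul_pow]
    exact mul_le_mul_of_nonneg_right h4 (by positivity)
  have h2 : 𝔼 A, f A ^ 2 ≤ μ := expect_le_expect fun A _ => by
    rw [← sq_abs]
    nlinarith [hb A, abs_nonneg (f A)]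
  refine (walk_le_levels r f).trans ?_
  have h3 := sum_le_sum h1
  rw [sum_const, card_range, nsmul_eq_mul] at h3
  have h4 : (1 / 2) ^ r * 𝔼 A, f A ^ 2 ≤ η / 2 * μ :=
    mul_le_mul hr.le h2 (expect_nonneg fun _ _ => sq_nonneg _) (half_pos hη).le
  have h5 : (r : ℝ) * θ ≤ η / 2 := by
    rw [hθ, ← mul_div_assoc, div_le_div_iff₀ (by positivity) (by norm_num)]
    nlinarith
  have h6 := mul_le_mul_of_nonneg_right h5 hμ0
  nlinarith

/-- Expansion for functions with values in `[0, 1]` whose restrictions have small mean. -/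
theorem expansion {η : ℝ} (hη : 0 < η) : ∃ (r : ℕ) (ε : ℝ), 0 < ε ∧
    ∀ (m n : Type) [Fintype m] [Fintype n] [DecidableEq m] [DecidableEq n]
      (f : Matrix m n F → ℝ), (∀ A, 0 ≤ f A) → (∀ A, f A ≤ 1) →
      (∀ (P : Matrix m m F) (Q : Matrix n n F) (T : Matrix m n F),
        Fintype.card m + Fintype.card n ≤ P.rank + Q.rank + r →
          𝔼 C : Matrix m n F, f (T + P * C * Q) ≤ ε) →
      𝔼 A, 𝔼 a : m → F, 𝔼 b : n → F, f A * f (A + vecMulVec a b) ≤ η * 𝔼 A, f A := by
  obtain ⟨r, ε, hε, H⟩ := expansion_glob hη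
  refine ⟨r, ε, hε, fun m n _ _ _ _ f h0 h1 hf => ?_⟩
  have h2 := H m n f (fun A => abs_le.2 ⟨by linarith [h0 A], h1 A⟩) fun P Q T hr =>
    le_trans (expect_le_expect fun C _ => by
      nlinarith [h0 (T + P * C * Q), h1 (T + P * C * Q)]) (hf P Q T hr)
  simpa only [abs_of_nonneg (h0 _)] using h2

end Vale.Agent.Lib.PCP.Bilin
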