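import Vale.Agent.Lib.PCP.Fourier
import Mathlib.LinearAlgebra.Matrix.Rank
import Mathlib.LinearAlgebra.Matrix.Trace
import Mathlib.FieldTheory.Finiteness
import Mathlib.Algebra.Field.ZMod

/-!
Fourier analysis on the space of matrices over the field with two elements (the bilinear scheme):
characters, coefficients, inversion, Parseval, convolution, Fourier multipliers, transposition,
and the probability `Pr[X w = v]` in terms of the rank.
-/

set_option linter.unusedSectionVars false

namespace Vale.Agent.Lib.PCP.Bilin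

open Finset Matrix
open scoped BigOperators

/-- The field with two elements. -/
abbrev F := ZMod 2

variable {m n : Type} [Fintype m] [Fintype n] [DecidableEq m] [DecidableEq n]

theorem mat_add_self (A : Matrix m n F) : A + A = 0 := by
  ext i j; exact f2_add_self _

theorem mat_add_eq_zero {A B : Matrix m n F} : A + B = 0 ↔ A = B := by
  constructor
  · intro h; ext i j; exact f2_add_eq_zero.1 (congrFun (congrFun h i) j)
  · rintro rfl; exact mat_add_self _

theorem mat_add_cancel (A B : Matrix m n F) : A + (A + B) = B := by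
  rw [← add_assoc, mat_add_self, zero_add]

theorem mat_add_cancel' (A B : Matrix m n F) : A + B + B = A := by
  rw [add_assoc, mat_add_self, add_zero]

/-- The character `A ↦ (-1)^(tr (X A))`. -/
def ch (X : Matrix n m F) (A : Matrix m n F) : ℝ := sg (trace (X * A))

theorem ch_comm (X : Matrix n m F) (A : Matrix m n F) : ch X A = ch A X := by
  rw [ch, ch, trace_mul_comm]

theorem ch_add (X : Matrix n m F) (A B : Matrix m n F) : ch X (A + B) = ch X A * ch X B := by
  rw [ch, Matrix.mul_add, trace_add, sg_add]; rfl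

theorem ch_add_left (X Y : Matrix n m F) (A : Matrix m n F) :
    ch (X + Y) A = ch X A * ch Y A := by
  rw [ch, Matrix.add_mul, trace_add, sg_add]; rfl

@[simp] theorem ch_zero (X : Matrix n m F) : ch X 0 = 1 := by simp [ch]
@[simp] theorem ch_zero_left (A : Matrix m n F) : ch 0 A = 1 := by simp [ch]

theorem ch_mul_self (X : Matrix n m F) (A : Matrix m n F) : ch X A * ch X A = 1 := sg_mul_self _
theorem ch_sq (X : Matrix n m F) (A : Matrix m n F) : ch X A ^ 2 = 1 := sg_sq _
theorem abs_ch (X : Matrix n m F) (A : Matrix m n F) : |ch X A| = 1 := abs_sg _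

theorem ch_transpose (X : Matrix n m F) (A : Matrix m n F) : ch Xᵀ Aᵀ = ch X A := by
  rw [ch, ch, ← transpose_mul, trace_transpose, trace_mul_comm]

theorem ch_mul_mul (X : Matrix n m F) (P : Matrix m m F) (C : Matrix m n F) (Q : Matrix n n F) :
    ch X (P * C * Q) = ch (Q * X * P) C := by
  rw [ch, ch, ← Matrix.mul_assoc, trace_mul_comm, ← Matrix.mul_assoc, ← Matrix.mul_assoc]

theorem ch_mul_right (X : Matrix n m F) (C : Matrix m n F) (Q : Matrix n n F) :
    ch X (C * Q) = ch (Q * X) C := by
  rw [ch, ch, ← Matrix.mul_assoc, trace_mul_comm, ← Matrix.mul_assoc]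

theorem ch_vecMulVec (X : Matrix n m F) (w : m → F) (φ : n → F) :
    ch X (vecMulVec w φ) = chi φ (X *ᵥ w) := by
  rw [ch, chi, mul_vecMulVec, trace_vecMulVec, dotProduct_comm]

/-- Translation invariance of the uniform distribution. -/
theorem expect_add_right' (f : Matrix m n F → ℝ) (Z : Matrix m n F) :
    𝔼 A, f (A + Z) = 𝔼 A, f A :=
  Fintype.expect_equiv (Equiv.addRight Z) _ _ fun _ => rfl

theorem expect_add_left' (f : Matrix m n F → ℝ) (Z : Matrix m n F) :
    𝔼 A, f (Z + A) = 𝔼 A, f A :=
  Fintype.expect_equiv (Equiv.addLeft Z) _ _ fun _ => rfl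

theorem expect_transpose (f : Matrix m n F → ℝ) : 𝔼 A : Matrix n m F, f Aᵀ = 𝔼 A, f A :=
  Fintype.expect_equiv (transposeAddEquiv n m F).toEquiv _ _ fun _ => rfl

theorem sum_transpose (f : Matrix m n F → ℝ) : ∑ A : Matrix n m F, f Aᵀ = ∑ A, f A :=
  Fintype.sum_equiv (transposeAddEquiv n m F).toEquiv _ _ fun _ => rfl

theorem sum_add_left' (f : Matrix m n F → ℝ) (Z : Matrix m n F) : ∑ A, f (Z + A) = ∑ A, f A :=
  Fintype.sum_equiv (Equiv.addLeft Z) _ _ fun _ => rfl

theorem sum_add_right' (f : Matrix m n F → ℝ) (Z : Matrix m n F) : ∑ A, f (A + Z) = ∑ A, f A :=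
  Fintype.sum_equiv (Equiv.addRight Z) _ _ fun _ => rfl

/-- Fibration: averaging over all translates of a family of shifts. -/
theorem expect_fibration {κ : Type*} [Fintype κ] [Nonempty κ] (G : Matrix m n F → ℝ)
    (s : κ → Matrix m n F) : 𝔼 T, 𝔼 C, G (T + s C) = 𝔼 A, G A := by
  rw [expect_comm]
  simp only [expect_add_right', Fintype.expect_const]

theorem expect_ch (X : Matrix n m F) : 𝔼 A, ch X A = if X = 0 then 1 else 0 := by
  split_ifs with h
  · subst h; simp
  · obtain ⟨i, hi⟩ := Function.ne_iff.1 h
    obtain ⟨j, hj⟩ := Function.ne_iff.1 hi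
    have h1 : X i j = 1 := f2_ne_zero.1 hj
    have h2 := expect_add_right' (fun A => ch X A) (single j i 1)
    have h3 : ch X (single j i 1) = -1 := by
      rw [ch, trace_mul_single]
      simp [h1]
    simp only [ch_add, h3, mul_neg, mul_one, expect_neg_distrib] at h2
    linarith

theorem card_mat_comm : Fintype.card (Matrix n m F) = Fintype.card (Matrix m n F) :=
  Fintype.card_congr (transposeAddEquiv n m F).toEquiv

theorem sum_ch (A : Matrix m n F) :
    ∑ X, ch X A = if A = 0 then (Fintype.card (Matrix m n F) : ℝ) else 0 := by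
  rw [← Fintype.card_mul_expect]
  simp only [ch_comm _ A, expect_ch, card_mat_comm]
  split_ifs <;> simp

theorem expect_ch_mul_ch (X Y : Matrix n m F) :
    𝔼 A, ch X A * ch Y A = if X = Y then 1 else 0 := by
  simp only [← ch_add_left, expect_ch, mat_add_eq_zero]

/-- The Fourier coefficient. -/
noncomputable def coef (f : Matrix m n F → ℝ) (X : Matrix n m F) : ℝ := 𝔼 A, f A * ch X A

/-- Fourier inversion. -/
theorem inversion (f : Matrix m n F → ℝ) (A : Matrix m n F) :
    ∑ X, coef f X * ch X A = f A := by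
  have h1 : ∀ X, coef f X * ch X A = 𝔼 B, f B * ch X (B + A) := by
    intro X
    rw [coef, expect_mul]
    simp only [ch_add, mul_assoc]
  simp only [h1]
  rw [← expect_sum_comm]
  simp only [← mul_sum, sum_ch, mat_add_eq_zero, mul_ite, mul_zero]
  rw [Fintype.expect_eq_sum_div_card, sum_ite_eq']
  have : (Fintype.card (Matrix m n F) : ℝ) ≠ 0 := Nat.cast_ne_zero.2 Fintype.card_ne_zero
  simp only [mem_univ, if_true]
  field_simp

theorem ext_coef {f g : Matrix m n F → ℝ} (h : ∀ X, coef f X = coef g X) : f = g := by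
  funext A
  rw [← inversion f A, ← inversion g A]
  simp only [h]

theorem plancherel (f g : Matrix m n F → ℝ) : 𝔼 A, f A * g A = ∑ X, coef f X * coef g X := by
  conv_lhs => enter [2, A]; rw [← inversion g A, mul_sum]
  rw [expect_sum_comm]
  refine sum_congr rfl fun X _ => ?_
  rw [show coef f X = 𝔼 A, f A * ch X A from rfl, expect_mul]
  exact expect_congr rfl fun A _ => by ring

theorem parseval (f : Matrix m n F → ℝ) : ∑ X, coef f X ^ 2 = 𝔼 A, f A ^ 2 := by
  simp only [sq, plancherel]

theorem coef_sum_ch (c : Matrix n m F → ℝ) (Y : Matrix n m F) :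
    coef (fun A => ∑ X, c X * ch X A) Y = c Y := by
  simp only [coef, sum_mul]
  rw [expect_sum_comm]
  simp only [mul_assoc, ← mul_expect, expect_ch_mul_ch, mul_ite, mul_one, mul_zero]
  simp

theorem coef_sub (f g : Matrix m n F → ℝ) (X : Matrix n m F) :
    coef (fun A => f A - g A) X = coef f X - coef g X := by
  simp only [coef, sub_mul, expect_sub_distrib]

theorem coef_add (f g : Matrix m n F → ℝ) (X : Matrix n m F) :
    coef (fun A => f A + g A) X = coef f X + coef g X := by
  simp only [coef, add_mul, expect_add_distrib]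

theorem coef_smul (c : ℝ) (f : Matrix m n F → ℝ) (X : Matrix n m F) :
    coef (fun A => c * f A) X = c * coef f X := by
  simp only [coef, mul_assoc, ← mul_expect]

theorem coef_translate (f : Matrix m n F → ℝ) (Z : Matrix m n F) (X : Matrix n m F) :
    coef (fun A => f (A + Z)) X = coef f X * ch X Z := by
  rw [coef, coef, ← expect_add_right' _ Z, expect_mul]
  refine expect_congr rfl fun A _ => ?_
  rw [mat_add_cancel', ch_add, mul_assoc]

theorem coef_expect {κ : Type*} [Fintype κ] (f : κ → Matrix m n F → ℝ) (X : Matrix n m F) :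
    coef (fun A => 𝔼 k, f k A) X = 𝔼 k, coef (f k) X := by
  simp only [coef, expect_mul]
  rw [expect_comm]

theorem coef_mul_ch (f : Matrix m n F → ℝ) (X Y : Matrix n m F) :
    coef (fun A => f A * ch Y A) X = coef f (X + Y) := by
  simp only [coef, ch_add_left]
  exact expect_congr rfl fun A _ => by ring

/-- The Fourier coefficients of a product. -/
theorem coef_mul (f g : Matrix m n F → ℝ) (X : Matrix n m F) :
    coef (fun A => f A * g A) X = ∑ Y, coef f Y * coef g (X + Y) := by
  have h1 : coef (fun A => f A * g A) X = 𝔼 A, f A * (g A * ch X A) := by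
    simp only [coef, mul_assoc]
  rw [h1, plancherel]
  simp only [coef_mul_ch, add_comm X]

theorem coef_transpose (f : Matrix m n F → ℝ) (X : Matrix m n F) :
    coef (fun A : Matrix n m F => f Aᵀ) X = coef f Xᵀ := by
  rw [coef, coef, ← expect_transpose]
  refine expect_congr rfl fun A _ => ?_
  rw [transpose_transpose, ← ch_transpose, transpose_transpose]

/-- The coefficients of a restriction `C ↦ f (T + P C Q)`. -/
theorem coef_res (f : Matrix m n F → ℝ) (P : Matrix m m F) (Q : Matrix n n F) (T : Matrix m n F)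
    (Y : Matrix n m F) : coef (fun C => f (T + P * C * Q)) Y =
      ∑ X, if Q * X * P = Y then coef f X * ch X T else 0 := by
  have h1 : ∀ C, f (T + P * C * Q) = ∑ X, coef f X * ch X T * ch (Q * X * P) C := by
    intro C
    rw [← inversion f]
    simp only [ch_add, ch_mul_mul, mul_assoc]
  simp only [coef, h1, sum_mul]
  rw [expect_sum_comm]
  refine sum_congr rfl fun X _ => ?_
  simp only [mul_assoc _ (ch (Q * X * P) _), ← mul_expect, expect_ch_mul_ch, mul_ite, mul_one,
    mul_zero]

/-! ### Fourier multipliers -/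

/-- The Fourier multiplier operator with symbol `φ`. -/
noncomputable def mult (φ : Matrix n m F → ℝ) (f : Matrix m n F → ℝ) (A : Matrix m n F) : ℝ :=
  ∑ X, φ X * coef f X * ch X A

theorem coef_mult (φ : Matrix n m F → ℝ) (f : Matrix m n F → ℝ) (X : Matrix n m F) :
    coef (mult φ f) X = φ X * coef f X :=
  coef_sum_ch (fun X => φ X * coef f X) X

theorem expect_mult_sq (φ : Matrix n m F → ℝ) (f : Matrix m n F → ℝ) :
    𝔼 A, mult φ f A ^ 2 = ∑ X, (φ X * coef f X) ^ 2 := by
  rw [← parseval]
  simp only [coef_mult]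

theorem mult_transpose (φ : Matrix n m F → ℝ) (f : Matrix m n F → ℝ) (A : Matrix n m F) :
    mult (fun X => φ Xᵀ) (fun B : Matrix n m F => f Bᵀ) A = mult φ f Aᵀ := by
  rw [mult, mult, ← sum_transpose]
  refine sum_congr rfl fun X _ => ?_
  rw [coef_transpose, transpose_transpose, ← ch_transpose, transpose_transpose]

/-- The part of level (rank) `d`. -/
noncomputable def lev (d : ℕ) (f : Matrix m n F → ℝ) : Matrix m n F → ℝ :=
  mult (fun X => if X.rank = d then 1 else 0) f

theorem coef_lev (d : ℕ) (f : Matrix m n F → ℝ) (X : Matrix n m F) :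
    coef (lev d f) X = if X.rank = d then coef f X else 0 := by
  rw [lev, coef_mult]
  split_ifs <;> simp

theorem lev_transpose (d : ℕ) (f : Matrix m n F → ℝ) (A : Matrix n m F) :
    lev d (fun B : Matrix n m F => f Bᵀ) A = lev d f Aᵀ := by
  rw [lev, lev, ← mult_transpose]
  simp only [rank_transpose]

/-! ### The distribution of `X w` -/

theorem card_ker (X : Matrix n m F) :
    (univ.filter fun w : m → F => X *ᵥ w = 0).card * 2 ^ X.rank = 2 ^ Fintype.card m := by
  classical
  have h1 := LinearMap.finrank_range_add_finrank_ker X.mulVecLin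
  have h2 : Fintype.card (LinearMap.ker X.mulVecLin) =
      Fintype.card F ^ Module.finrank F (LinearMap.ker X.mulVecLin) := Module.card_eq_pow_finrank
  have h3 : Fintype.card (LinearMap.ker X.mulVecLin) =
      (univ.filter fun w : m → F => X *ᵥ w = 0).card := by
    rw [Fintype.card_subtype]
    congr 1
    ext w
    simp
  rw [Module.finrank_fintype_fun_eq_card] at h1
  rw [← h3, h2, ← h1, ZMod.card, Matrix.rank, pow_add, mul_comm]

theorem prob_ker (X : Matrix n m F) :
    𝔼 w : m → F, (if X *ᵥ w = 0 then (1 : ℝ) else 0) = (1 / 2) ^ X.rank := by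
  rw [Fintype.expect_eq_sum_div_card, sum_boole, Fintype.card_fun, ZMod.card]
  have h := congrArg (Nat.cast : ℕ → ℝ) (card_ker X)
  push_cast at h ⊢
  rw [← h, one_div, inv_pow]
  have h1 : ((univ.filter fun w : m → F => X *ᵥ w = 0).card : ℝ) ≠ 0 := by
    rw [Nat.cast_ne_zero, card_ne_zero]
    exact ⟨0, by simp⟩
  field_simp

/-- The column space (image) of a matrix. -/
def InIm (X : Matrix n m F) (v : n → F) : Prop := ∃ w, X *ᵥ w = v

instance (X : Matrix n m F) (v : n → F) : Decidable (InIm X v) :=
  inferInstanceAs (Decidable (∃ w, X *ᵥ w = v))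

theorem prob_eq (X : Matrix n m F) (v : n → F) :
    𝔼 w : m → F, (if X *ᵥ w = v then (1 : ℝ) else 0) =
      if InIm X v then (1 / 2) ^ X.rank else 0 := by
  split_ifs with h
  · obtain ⟨u, rfl⟩ := h
    rw [← prob_ker, ← expect_add_right _ u]
    refine expect_congr rfl fun w _ => ?_
    simp [mulVec_add]
  · rw [expect_eq_zero]
    intro w _
    rw [if_neg fun h' => h ⟨w, h'⟩]

theorem card_im (X : Matrix n m F) : (univ.filter (InIm X)).card = 2 ^ X.rank := by
  classical
  have h2 : Fintype.card (LinearMap.range X.mulVecLin) =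
      Fintype.card F ^ Module.finrank F (LinearMap.range X.mulVecLin) := Module.card_eq_pow_finrank
  rw [ZMod.card] at h2
  rw [Matrix.rank, ← h2, Fintype.card_subtype]
  congr 1
  ext w
  simp [InIm]

/-- The eigenvalue of the rank one walk. -/
theorem expect_ch_vecMulVec (X : Matrix n m F) :
    𝔼 w : m → F, 𝔼 φ : n → F, ch X (vecMulVec w φ) = (1 / 2) ^ X.rank := by
  simp only [ch_vecMulVec, chi_comm _ (X *ᵥ _), expect_chi]
  exact prob_ker X

end Vale.Agent.Lib.PCP.Bilin
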