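import Vale.Agent.Lib.PCP.Bilin.Fourier

/-!
Global functions on the bilinear scheme, averaging operators and restrictions.
-/

set_option linter.unusedSectionVars false

namespace Vale.Agent.Lib.PCP.Bilin

open Finset Matrix
open scoped BigOperators

variable {m n : Type} [Fintype m] [Fintype n] [DecidableEq m] [DecidableEq n]

theorem sq_expect_le {κ : Type*} [Fintype κ] [Nonempty κ] (a : κ → ℝ) :
    (𝔼 k, a k) ^ 2 ≤ 𝔼 k, a k ^ 2 := by
  have := expect_mul_sq_le_sq_mul_sq univ a (fun _ => (1 : ℝ))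
  simpa using this

/-- `f` is global: all restrictions `C ↦ f (T + P C Q)` of order (corank of `P` plus corank of `Q`)
at most `r` have mean square at most `γ`. -/
def Glob (r : ℕ) (γ : ℝ) (f : Matrix m n F → ℝ) : Prop :=
  ∀ (P : Matrix m m F) (Q : Matrix n n F) (T : Matrix m n F),
    Fintype.card m + Fintype.card n ≤ P.rank + Q.rank + r →
      𝔼 C : Matrix m n F, f (T + P * C * Q) ^ 2 ≤ γ

variable {r : ℕ} {γ : ℝ} {f : Matrix m n F → ℝ}

theorem Glob.expect_sq_le (h : Glob r γ f) : 𝔼 A, f A ^ 2 ≤ γ := by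
  have := h 1 1 0 (by simp)
  simpa using this

theorem Glob.nonneg (h : Glob r γ f) : 0 ≤ γ :=
  (expect_nonneg fun _ _ => sq_nonneg _).trans h.expect_sq_le

theorem Glob.mono (h : Glob r γ f) {γ' : ℝ} (hγ : γ ≤ γ') : Glob r γ' f :=
  fun P Q T hr => (h P Q T hr).trans hγ

theorem Glob.anti (h : Glob r γ f) {r' : ℕ} (hr : r' ≤ r) : Glob r' γ f :=
  fun P Q T h' => h P Q T (by omega)

theorem Glob.transpose (h : Glob r γ f) : Glob r γ (fun B : Matrix n m F => f Bᵀ) := by
  intro P Q T hr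
  have := h Qᵀ Pᵀ Tᵀ (by rw [rank_transpose, rank_transpose]; omega)
  rw [← expect_transpose] at this
  simpa only [transpose_add, transpose_mul, Matrix.mul_assoc] using this

theorem glob_zero (r : ℕ) {γ : ℝ} (hγ : 0 ≤ γ) : Glob r γ (fun _ : Matrix m n F => 0) := by
  intro P Q T _
  simpa using hγ

/-- Averaging over rank one shifts `w φᵀ` with `φ · v = 1`. -/
noncomputable def Ev (v : n → F) (f : Matrix m n F → ℝ) (A : Matrix m n F) : ℝ :=
  𝔼 φ : n → F, 𝔼 w : m → F, (1 - chi φ v) * f (A + vecMulVec w φ)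

theorem Glob.ev (h : Glob r γ f) (v : n → F) : Glob r (4 * γ) (Ev v f) := by
  intro P Q T hr
  have h1 : ∀ C : Matrix m n F, Ev v f (T + P * C * Q) ^ 2 ≤
      𝔼 φ : n → F, 𝔼 w : m → F, 4 * f (T + vecMulVec w φ + P * C * Q) ^ 2 := by
    intro C
    refine (sq_expect_le _).trans (expect_le_expect fun φ _ => ?_)
    refine (sq_expect_le _).trans (expect_le_expect fun w _ => ?_)
    rw [mul_pow, add_right_comm]
    refine mul_le_mul_of_nonneg_right ?_ (sq_nonneg _)
    have h2 := abs_le.1 (abs_chi φ v).le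
    nlinarith [h2.1, h2.2]
  refine (expect_le_expect fun C _ => h1 C).trans ?_
  rw [expect_comm]
  refine expect_le univ_nonempty fun φ _ => ?_
  rw [expect_comm]
  refine expect_le univ_nonempty fun w _ => ?_
  rw [← mul_expect]
  exact mul_le_mul_of_nonneg_left (h P Q _ hr) (by norm_num)

theorem coef_ev (v : n → F) (f : Matrix m n F → ℝ) (X : Matrix n m F) :
    coef (Ev v f) X = (if InIm X v then 0 else (1 / 2) ^ X.rank) * coef f X := by
  have h1 : coef (Ev v f) X =
      𝔼 φ : n → F, 𝔼 w : m → F, coef f X * (chi φ (X *ᵥ w) - chi φ (X *ᵥ w + v)) := by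
    rw [show Ev v f = fun A => 𝔼 φ : n → F, (fun φ A => 𝔼 w : m → F,
      (1 - chi φ v) * f (A + vecMulVec w φ)) φ A from rfl, coef_expect]
    refine expect_congr rfl fun φ _ => ?_
    rw [coef_expect (fun w A => (1 - chi φ v) * f (A + vecMulVec w φ))]
    refine expect_congr rfl fun w _ => ?_
    rw [coef_smul, coef_translate, ch_vecMulVec, chi_add]
    ring
  rw [h1, expect_comm]
  simp only [← mul_expect, expect_sub_distrib, chi_comm _ (X *ᵥ _), chi_comm _ (X *ᵥ _ + v),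
    expect_chi, f2_vec_add_eq_zero]
  rw [prob_ker, prob_eq]
  split_ifs <;> ring

/-- The operator `1 - κ E_v`. -/
noncomputable def Dv (κ : ℝ) (v : n → F) (f : Matrix m n F → ℝ) (A : Matrix m n F) : ℝ :=
  f A - κ * Ev v f A

theorem Glob.dv (h : Glob r γ f) (κ : ℝ) (v : n → F) :
    Glob r ((2 + 8 * κ ^ 2) * γ) (Dv κ v f) := by
  intro P Q T hr
  have h1 := h P Q T hr
  have h2 := h.ev v P Q T hr
  have h3 : 𝔼 C : Matrix m n F, Dv κ v f (T + P * C * Q) ^ 2 ≤
      𝔼 C : Matrix m n F, (2 * f (T + P * C * Q) ^ 2 +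
        2 * κ ^ 2 * Ev v f (T + P * C * Q) ^ 2) := by
    refine expect_le_expect fun C _ => ?_
    rw [Dv]
    nlinarith [sq_nonneg (f (T + P * C * Q) + κ * Ev v f (T + P * C * Q))]
  rw [expect_add_distrib, ← mul_expect, ← mul_expect] at h3
  have h4 := mul_le_mul_of_nonneg_left h2 (by positivity : 0 ≤ 2 * κ ^ 2)
  linarith

theorem coef_dv (κ : ℝ) (v : n → F) (f : Matrix m n F → ℝ) (X : Matrix n m F) :
    coef (Dv κ v f) X = (1 - κ * (if InIm X v then 0 else (1 / 2) ^ X.rank)) * coef f X := by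
  rw [show Dv κ v f = fun A => f A - (fun A => κ * Ev v f A) A from rfl, coef_sub, coef_smul,
    coef_ev]
  ring

/-- The Laplacian in the direction `v`. -/
noncomputable def Lv (v : n → F) (f : Matrix m n F → ℝ) : Matrix m n F → ℝ :=
  mult (fun X => if InIm X v then 1 else 0) f

theorem two_pow_mul_half_pow (d : ℕ) : (2 : ℝ) ^ d * (1 / 2) ^ d = 1 := by
  rw [← mul_pow]; norm_num

theorem Lv_lev (v : n → F) (d : ℕ) (f : Matrix m n F → ℝ) :
    Lv v (lev d f) = lev d (Dv (2 ^ d) v f) := by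
  refine ext_coef fun X => ?_
  rw [Lv, coef_mult, coef_lev, coef_lev, coef_dv]
  split_ifs with h1 h2 h2
  · simp
  · simp
  · rw [h2, two_pow_mul_half_pow]; simp
  · simp

/-- The projection with kernel spanned by `v` (when `φ · v = 1`). -/
def Qv (v φ : n → F) : Matrix n n F := 1 + vecMulVec v φ

theorem Qv_transpose (v φ : n → F) : (Qv v φ)ᵀ = Qv φ v := by
  simp [Qv, transpose_vecMulVec]

theorem Qv_mulVec_eq_zero {v φ : n → F} (h : φ ⬝ᵥ v = 1) (x : n → F) :
    Qv v φ *ᵥ x = 0 ↔ x = 0 ∨ x = v := by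
  rw [Qv, add_mulVec, one_mulVec, vecMulVec_mulVec, f2_vec_add_eq_zero]
  constructor
  · intro hx
    rcases f2_cases (φ ⬝ᵥ x) with h0 | h0
    · left; rw [hx, h0]; simp
    · right; rw [hx, h0]; simp
  · rintro (rfl | rfl)
    · simp
    · simp [h]

theorem ne_zero_of_dot {v φ : n → F} (h : φ ⬝ᵥ v = 1) : v ≠ 0 := by
  rintro rfl
  simp at h

theorem half_pow_rank_Qv {v φ : n → F} (h : φ ⬝ᵥ v = 1) (X : Matrix n m F) :
    ((1 : ℝ) / 2) ^ (Qv v φ * X).rank =
      (1 / 2) ^ X.rank + if InIm X v then (1 / 2) ^ X.rank else 0 := by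
  rw [← prob_ker, ← prob_eq, ← prob_ker, ← expect_add_distrib]
  refine expect_congr rfl fun w _ => ?_
  rw [← mulVec_mulVec]
  simp only [Qv_mulVec_eq_zero h]
  have hv := ne_zero_of_dot h
  by_cases h1 : X *ᵥ w = 0
  · simp [h1, hv.symm]
  · by_cases h2 : X *ᵥ w = v
    · simp [h2, hv]
    · simp [h1, h2]

theorem half_pow_inj {a b : ℕ} (h : ((1 : ℝ) / 2) ^ a = (1 / 2) ^ b) : a = b :=
  pow_right_injective₀ (by norm_num) (by norm_num) h

theorem rank_Qv_of_mem {v φ : n → F} (h : φ ⬝ᵥ v = 1) {X : Matrix n m F} (hX : InIm X v) :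
    (Qv v φ * X).rank + 1 = X.rank := by
  have h1 := half_pow_rank_Qv h X
  rw [if_pos hX] at h1
  apply half_pow_inj
  rw [pow_succ, h1]
  ring

theorem rank_Qv_of_not_mem {v φ : n → F} (h : φ ⬝ᵥ v = 1) {X : Matrix n m F} (hX : ¬InIm X v) :
    (Qv v φ * X).rank = X.rank := by
  have h1 := half_pow_rank_Qv h X
  rw [if_neg hX, add_zero] at h1
  exact half_pow_inj h1

theorem rank_le_rank_mul_Qv {v φ : n → F} (h : φ ⬝ᵥ v = 1) (Q : Matrix m n F) :
    Q.rank ≤ (Q * Qv v φ).rank + 1 := by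
  rw [← rank_transpose (Q * Qv v φ), transpose_mul, Qv_transpose, ← rank_transpose Q]
  have h' : v ⬝ᵥ φ = 1 := by rw [dotProduct_comm, h]
  by_cases hX : InIm Qᵀ φ
  · exact (rank_Qv_of_mem h' hX).ge
  · rw [rank_Qv_of_not_mem h' hX]; omega

theorem Glob.res (hf : Glob (r + 1) γ f) {v φ : n → F} (h : φ ⬝ᵥ v = 1) (T : Matrix m n F) :
    Glob r γ (fun C : Matrix m n F => f (T + (1 : Matrix m m F) * C * Qv v φ)) := by
  intro P Q T' hr
  have h1 := rank_le_rank_mul_Qv h Q
  have h2 := hf P (Q * Qv v φ) (T + T' * Qv v φ) (by omega)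
  simpa only [Matrix.one_mul, Matrix.add_mul, Matrix.mul_assoc, add_assoc] using h2

/-- The derivative of a level is a level of a restriction. -/
theorem res_Lv_lev {v φ : n → F} (h : φ ⬝ᵥ v = 1) (d : ℕ) (f : Matrix m n F → ℝ)
    (T : Matrix m n F) : (fun C : Matrix m n F => Lv v (lev (d + 1) f) (T + (1 : Matrix m m F) * C * Qv v φ)) =
      lev d (fun C : Matrix m n F => Dv (2 ^ d) v f (T + (1 : Matrix m m F) * C * Qv v φ)) := by
  refine ext_coef fun Y => ?_
  rw [coef_lev, coef_res, coef_res]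
  have h1 : ∀ (p : Prop) [Decidable p] (a : Matrix n m F → ℝ),
      (if p then ∑ X, a X else 0) = ∑ X, if p then a X else 0 := by
    intro p _ a
    split_ifs <;> simp
  rw [h1]
  refine sum_congr rfl fun X _ => ?_
  rw [Lv, coef_mult, coef_lev, coef_dv, Matrix.mul_one]
  by_cases h2 : Qv v φ * X = Y
  · subst h2
    by_cases hX : InIm X v
    · have h3 := rank_Qv_of_mem h hX
      by_cases h4 : X.rank = d + 1
      · have h5 : (Qv v φ * X).rank = d := by omega
        simp [hX, h4, h5]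
      · have h5 : (Qv v φ * X).rank ≠ d := by omega
        simp [h4, h5]
    · have h3 := rank_Qv_of_not_mem h hX
      by_cases h4 : X.rank = d
      · rw [if_pos rfl, if_neg hX, if_pos (h3.trans h4), if_pos rfl, if_neg hX, h4,
          two_pow_mul_half_pow]
        simp
      · have h5 : (Qv v φ * X).rank ≠ d := by omega
        simp [hX, h5]
  · simp [h2]

theorem exists_dot_eq_one {v : n → F} (hv : v ≠ 0) : ∃ φ : n → F, φ ⬝ᵥ v = 1 := by
  obtain ⟨i, hi⟩ := Function.ne_iff.1 hv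
  exact ⟨Pi.single i 1, by simpa using f2_ne_zero.1 hi⟩

/-- The hypercontractive inequality for the level `d` of global functions, with constant `C`. -/
def Hyp (m n : Type) [Fintype m] [Fintype n] [DecidableEq m] [DecidableEq n] (d : ℕ) (C : ℝ) :
    Prop :=
  ∀ (f : Matrix m n F → ℝ) (γ : ℝ), Glob d γ f →
    𝔼 A, lev d f A ^ 4 ≤ C * γ * 𝔼 A, lev d f A ^ 2

theorem Hyp.Lv {d : ℕ} {C : ℝ} (H : Hyp m n d C) {v : n → F} (hv : v ≠ 0)
    (hf : Glob (d + 1) γ f) : 𝔼 A, Lv v (lev (d + 1) f) A ^ 4 ≤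
      C * ((2 + 8 * (2 ^ d) ^ 2) * γ) * 𝔼 A, Bilin.Lv v (lev (d + 1) f) A ^ 2 := by
  obtain ⟨φ, h⟩ := exists_dot_eq_one hv
  rw [← expect_fibration (fun A => Bilin.Lv v (lev (d + 1) f) A ^ 4)
      (fun C : Matrix m n F => (1 : Matrix m m F) * C * Qv v φ),
    ← expect_fibration (fun A => Bilin.Lv v (lev (d + 1) f) A ^ 2)
      (fun C : Matrix m n F => (1 : Matrix m m F) * C * Qv v φ), mul_expect]
  refine expect_le_expect fun T _ => ?_
  have h1 := H _ _ ((hf.dv (2 ^ d) v).res h T)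
  rw [← res_Lv_lev h] at h1
  exact h1

end Vale.Agent.Lib.PCP.Bilin
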