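import Vale.Agent.Lib.PCP.Bilin.Fourier
import Mathlib.Algebra.Order.Chebyshev

/-!
The combinatorial core of the hypercontractive inequality on the bilinear scheme: the fourth
moment of a function of low degree is bounded by the square of its second moment and the fourth
moments of its Laplacians.
-/

set_option linter.unusedSectionVars false

namespace Vale.Agent.Lib.PCP.Bilin

open Finset Matrix
open scoped BigOperators

variable {m n : Type} [Fintype m] [Fintype n] [DecidableEq m] [DecidableEq n]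

/-- A vector that is orthogonal to the kernel lies in the row space. -/
theorem inIm_transpose_of_orth (X : Matrix n m F) (θ : m → F)
    (h : ∀ w, X *ᵥ w = 0 → θ ⬝ᵥ w = 0) : InIm Xᵀ θ := by
  by_contra hc
  have h1 := prob_eq Xᵀ θ
  rw [if_neg hc] at h1
  have h2 : ∀ φ : n → F, (if Xᵀ *ᵥ φ = θ then (1 : ℝ) else 0) =
      𝔼 w : m → F, chi φ (X *ᵥ w) * chi θ w := by
    intro φ
    rw [← expect_chi_mul_chi]
    refine expect_congr rfl fun w _ => ?_
    rw [chi, chi, chi, dotProduct_mulVec, mulVec_transpose]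
  simp only [h2] at h1
  rw [expect_comm] at h1
  have h3 : ∀ w : m → F, 𝔼 φ : n → F, chi φ (X *ᵥ w) * chi θ w =
      if X *ᵥ w = 0 then 1 else 0 := by
    intro w
    rw [← expect_mul]
    simp only [chi_comm _ (X *ᵥ w), expect_chi]
    split_ifs with h4
    · rw [chi, h w h4]; simp
    · simp
  simp only [h3, prob_ker] at h1
  exact absurd h1 (by positivity)

/-- Atoms: nonzero vectors of the column space or of the row space. -/
abbrev At (m n : Type) := (n → F) ⊕ (m → F)

/-- `s` is an atom of `X`. -/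
def IsAt (X : Matrix n m F) : At m n → Prop
  | Sum.inl v => v ≠ 0 ∧ InIm X v
  | Sum.inr θ => θ ≠ 0 ∧ InIm Xᵀ θ

instance (X : Matrix n m F) : DecidablePred (IsAt X) := fun s =>
  match s with
  | Sum.inl v => inferInstanceAs (Decidable (v ≠ 0 ∧ InIm X v))
  | Sum.inr θ => inferInstanceAs (Decidable (θ ≠ 0 ∧ InIm Xᵀ θ))

/-- The set of atoms of `X`. -/
def atoms (X : Matrix n m F) : Finset (At m n) := univ.filter (IsAt X)

theorem mem_atoms {X : Matrix n m F} {s : At m n} : s ∈ atoms X ↔ IsAt X s := by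
  simp [atoms]

theorem card_atoms (X : Matrix n m F) : (atoms X).card ≤ 2 * 2 ^ X.rank := by
  have h1 : atoms X ⊆ (univ.filter (InIm X)).disjSum (univ.filter (InIm Xᵀ)) := by
    intro s hs
    rw [mem_atoms] at hs
    rcases s with v | θ
    · simpa using hs.2
    · simpa using hs.2
  refine (card_le_card h1).trans ?_
  rw [card_disjSum, card_im, card_im, rank_transpose]
  omega

/-- `Y'` lies below `Y`: smaller column space and larger kernel. -/
def Below (Y' Y : Matrix n m F) : Prop :=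
  (∀ w, InIm Y (Y' *ᵥ w)) ∧ ∀ w, Y *ᵥ w = 0 → Y' *ᵥ w = 0

instance (Y' Y : Matrix n m F) : Decidable (Below Y' Y) :=
  inferInstanceAs (Decidable ((∀ w, InIm Y (Y' *ᵥ w)) ∧ ∀ w, Y *ᵥ w = 0 → Y' *ᵥ w = 0))

theorem card_below (Y : Matrix n m F) :
    (univ.filter fun Y' => Below Y' Y).card ≤ (2 ^ Y.rank) ^ (2 ^ Y.rank) := by
  classical
  let I := {v : n → F // InIm Y v}
  have hI : Fintype.card I = 2 ^ Y.rank := by rw [Fintype.card_subtype, card_im]
  have h1 : (Fintype.piFinset fun _ : I => univ.filter (InIm Y)).card =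
      (2 ^ Y.rank) ^ (2 ^ Y.rank) := by
    rw [Fintype.card_piFinset, prod_const, card_im, card_univ, hI]
  rw [← h1]
  refine card_le_card_of_injOn (fun Y' (u : I) => Y' *ᵥ u.2.choose) ?_ ?_
  · intro Y' hY'
    simp only [coe_filter, mem_univ, true_and, Set.mem_ofPred_eq] at hY'
    simp only [Fintype.coe_piFinset, coe_filter, mem_univ, true_and, Set.mem_pi, Set.mem_univ,
      Set.mem_ofPred_eq, forall_const]
    exact fun u => hY'.1 _
  · intro Y' hY' Y'' hY'' h
    simp only [coe_filter, mem_univ, true_and, Set.mem_ofPred_eq] at hY' hY''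
    have key : ∀ w, Y' *ᵥ w = Y'' *ᵥ w := by
      intro w
      let u : I := ⟨Y *ᵥ w, w, rfl⟩
      have h2 : Y *ᵥ (u.2.choose + w) = 0 := by
        rw [mulVec_add, u.2.choose_spec, f2_vec_add_self]
      have h3 := hY'.2 _ h2
      have h4 := hY''.2 _ h2
      rw [mulVec_add, f2_vec_add_eq_zero] at h3 h4
      rw [← h3, ← h4]
      exact congrFun h u
    ext i j
    have := congrFun (key (Pi.single j 1)) i
    simpa using this

/-- `(Y, X + Y)` is a good pair for `X`: the three matrices have no common atom. -/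
def Good (X Y : Matrix n m F) : Prop := atoms X ∩ (atoms Y ∩ atoms (X + Y)) = ∅

instance (X Y : Matrix n m F) : Decidable (Good X Y) :=
  inferInstanceAs (Decidable (atoms X ∩ (atoms Y ∩ atoms (X + Y)) = ∅))

theorem Good.exists_below {X Y : Matrix n m F} (h : Good X Y) :
    ∃ Y', Below Y' X ∧ Below Y' Y ∧ Below (X + Y') (X + Y) := by
  set Z := X + Y with hZ
  have hno : ∀ s, IsAt X s → IsAt Y s → IsAt Z s → False := by
    intro s h1 h2 h3
    have : s ∈ atoms X ∩ (atoms Y ∩ atoms Z) := by simp [mem_atoms, h1, h2, h3]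
    rw [h] at this
    simp at this
  have hZw : ∀ w, Z *ᵥ w = X *ᵥ w + Y *ᵥ w := fun w => by rw [hZ, add_mulVec]
  let KX := LinearMap.ker X.mulVecLin
  let KY := LinearMap.ker Y.mulVecLin
  let KZ := LinearMap.ker Z.mulVecLin
  let φ : KX × KY × KZ →ₗ[F] (m → F) := KX.subtype.coprod (KY.subtype.coprod KZ.subtype)
  have hφ : ∀ p : KX × KY × KZ, φ p = p.1.1 + (p.2.1.1 + p.2.2.1) := fun p => rfl
  have hsurj : LinearMap.range φ = ⊤ := by
    by_contra hne
    obtain ⟨f, hf0, hf⟩ := Submodule.exists_le_ker_of_lt_top _ (lt_top_iff_ne_top.2 hne)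
    let θ : m → F := fun i => f (Pi.single i 1)
    have hθ : ∀ w, θ ⬝ᵥ w = f w := by
      intro w
      rw [LinearMap.pi_apply_eq_sum_univ f w, dotProduct]
      refine sum_congr rfl fun i _ => ?_
      rw [smul_eq_mul, mul_comm]
      have : (Pi.single i 1 : m → F) = fun j => if i = j then 1 else 0 := by
        ext j
        simp [Pi.single_apply, eq_comm]
      simp only [θ, this]
    have hθ0 : θ ≠ 0 := by
      intro h0
      apply hf0
      ext i
      simpa using congrFun h0 i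
    have hz : ∀ p, θ ⬝ᵥ φ p = 0 := fun p => by
      rw [hθ]; exact hf ⟨p, rfl⟩
    refine hno (Sum.inr θ) ⟨hθ0, inIm_transpose_of_orth _ _ fun w hw => ?_⟩
      ⟨hθ0, inIm_transpose_of_orth _ _ fun w hw => ?_⟩
      ⟨hθ0, inIm_transpose_of_orth _ _ fun w hw => ?_⟩
    · simpa [hφ] using hz (⟨w, hw⟩, 0, 0)
    · simpa [hφ] using hz (0, ⟨w, hw⟩, 0)
    · simpa [hφ] using hz (0, 0, ⟨w, hw⟩)
  obtain ⟨ρ, hρ⟩ := φ.exists_rightInverse_of_surjective hsurj
  have hρ' : ∀ w, φ (ρ w) = w := fun w => LinearMap.congr_fun hρ w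
  let ψ : KX × KY × KZ →ₗ[F] (n → F) :=
    X.mulVecLin ∘ₗ KZ.subtype ∘ₗ LinearMap.snd F KY KZ ∘ₗ LinearMap.snd F KX (KY × KZ)
  have hψ : ∀ p : KX × KY × KZ, ψ p = X *ᵥ p.2.2.1 := fun p => rfl
  have hker : ∀ p, φ p = 0 → ψ p = 0 := by
    rintro ⟨⟨k, hk⟩, ⟨y, hy⟩, ⟨z, hz⟩⟩ hp
    rw [hφ] at hp
    rw [hψ]
    change k + (y + z) = 0 at hp
    change X *ᵥ k = 0 at hk
    change Y *ᵥ y = 0 at hy
    change Z *ᵥ z = 0 at hz
    change X *ᵥ z = 0
    by_contra hne
    have h1 : X *ᵥ y = X *ᵥ z := by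
      have := congrArg (X *ᵥ ·) hp
      simp only [mulVec_add, hk, zero_add, mulVec_zero] at this
      exact f2_vec_add_eq_zero.1 this
    refine hno (Sum.inl (X *ᵥ z)) ⟨hne, z, rfl⟩ ⟨hne, z, ?_⟩ ⟨hne, y, ?_⟩
    · rw [hZw, f2_vec_add_eq_zero] at hz
      exact hz.symm
    · rw [hZw, hy, add_zero, h1]
  have hL : ∀ p, ψ (ρ (φ p)) = ψ p := by
    intro p
    have := hker (ρ (φ p) - p) (by rw [map_sub, hρ', sub_self])
    rwa [map_sub, sub_eq_zero] at this
  let Y' : Matrix n m F := LinearMap.toMatrix' (ψ ∘ₗ ρ)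
  have hY' : ∀ w, Y' *ᵥ w = ψ (ρ w) := fun w => by
    rw [← Matrix.toLin'_apply, Matrix.toLin'_toMatrix']; rfl
  refine ⟨Y', ⟨fun w => ⟨_, (hY' w).symm⟩, fun w hw => ?_⟩, ⟨fun w => ⟨(ρ w).2.2.1, ?_⟩,
    fun w hw => ?_⟩, ⟨fun w => ⟨(ρ w).2.1.1, ?_⟩, fun w hw => ?_⟩⟩
  · have := hL (⟨w, hw⟩, 0, 0)
    rw [hφ, hψ, hψ] at this
    rw [hY', hψ]
    simpa using this
  · have h1 : Z *ᵥ (ρ w).2.2.1 = 0 := (ρ w).2.2.2
    rw [hZw, f2_vec_add_eq_zero] at h1
    rw [hY', hψ, h1]
  · have := hL (0, ⟨w, hw⟩, 0)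
    rw [hφ, hψ, hψ] at this
    rw [hY', hψ]
    simpa using this
  · have h1 : Y *ᵥ (ρ w).2.1.1 = 0 := (ρ w).2.1.2
    have h2 : X *ᵥ (ρ w).1.1 = 0 := (ρ w).1.2
    have h3 := hρ' w
    rw [hφ] at h3
    rw [hZw, h1, add_zero, add_mulVec, hY', hψ]
    conv_rhs => enter [1, 2]; rw [← h3]
    rw [mulVec_add, mulVec_add, h2, zero_add, add_assoc, f2_vec_add_self, add_zero]
  · have := hL (0, 0, ⟨w, hw⟩)
    rw [hφ, hψ, hψ] at this
    rw [add_mulVec, hY', hψ, f2_vec_add_eq_zero]
    simpa using this.symm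

/-- The Laplacian of a set of atoms. -/
noncomputable def LS (S : Finset (At m n)) (g : Matrix m n F → ℝ) : Matrix m n F → ℝ :=
  mult (fun X => if S ⊆ atoms X then 1 else 0) g

theorem coef_LS (S : Finset (At m n)) (g : Matrix m n F → ℝ) (X : Matrix n m F) :
    coef (LS S g) X = if S ⊆ atoms X then coef g X else 0 := by
  rw [LS, coef_mult]
  split_ifs <;> simp

theorem LS_empty (g : Matrix m n F → ℝ) : LS ∅ g = g :=
  ext_coef fun X => by simp [coef_LS]

/-- The contribution of the good pairs to the coefficients of `g^2`. -/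
noncomputable def goodSum (g : Matrix m n F → ℝ) (X : Matrix n m F) : ℝ :=
  ∑ Y, if Good X Y then coef g Y * coef g (X + Y) else 0

theorem incl_excl (g : Matrix m n F → ℝ) (X : Matrix n m F) : goodSum g X =
    ∑ S ∈ (atoms X).powerset, (-1) ^ S.card * coef (fun A => LS S g A * LS S g A) X := by
  simp only [coef_mul, coef_LS, mul_sum]
  rw [sum_comm, goodSum]
  refine sum_congr rfl fun Y _ => ?_
  have h1 := congrArg (Int.cast : ℤ → ℝ)
    (sum_powerset_neg_one_pow_card (x := atoms X ∩ (atoms Y ∩ atoms (X + Y))))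
  push_cast at h1
  have h2 : (atoms X ∩ (atoms Y ∩ atoms (X + Y))).powerset =
      (atoms X).powerset.filter fun S => S ⊆ atoms Y ∧ S ⊆ atoms (X + Y) := by
    ext S
    simp [subset_inter_iff]
  rw [h2, sum_filter] at h1
  calc (if Good X Y then coef g Y * coef g (X + Y) else 0)
      = (if atoms X ∩ (atoms Y ∩ atoms (X + Y)) = ∅ then (1 : ℝ) else 0) *
        (coef g Y * coef g (X + Y)) := by
        by_cases h : Good X Y
        · rw [if_pos h, if_pos (show _ = ∅ from h), one_mul]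
        · rw [if_neg h, if_neg (show ¬ _ = ∅ from h), zero_mul]
    _ = _ := by
        rw [← h1, sum_mul]
        refine sum_congr rfl fun S _ => ?_
        by_cases h3 : S ⊆ atoms Y <;> by_cases h4 : S ⊆ atoms (X + Y) <;> simp [h3, h4]

/-- The Fourier weight above `Y'`. -/
noncomputable def above (g : Matrix m n F → ℝ) (Y' : Matrix n m F) : ℝ :=
  ∑ Y, if Below Y' Y then coef g Y ^ 2 else 0

theorem above_nonneg (g : Matrix m n F → ℝ) (Y' : Matrix n m F) : 0 ≤ above g Y' :=
  sum_nonneg fun _ _ => by split_ifs <;> positivity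

theorem goodSum_sq_le (g : Matrix m n F → ℝ) (X : Matrix n m F) :
    goodSum g X ^ 2 ≤ ((univ.filter fun Y' => Below Y' X).card : ℝ) *
      ∑ Y', above g Y' * above g (X + Y') := by
  set D := univ.filter fun Y' => Below Y' X with hD
  let t : Matrix n m F → ℝ := fun Y' => ∑ Y, (if Below Y' Y then |coef g Y| else 0) *
    (if Below (X + Y') (X + Y) then |coef g (X + Y)| else 0)
  have h0 : ∀ Y' Y : Matrix n m F, 0 ≤ (if Below Y' Y then |coef g Y| else 0) *
      (if Below (X + Y') (X + Y) then |coef g (X + Y)| else 0) := fun Y' Y => by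
    split_ifs <;> positivity
  have h1 : |goodSum g X| ≤ ∑ Y' ∈ D, t Y' := by
    rw [goodSum, sum_comm]
    refine (abs_sum_le_sum_abs _ _).trans (sum_le_sum fun Y _ => ?_)
    split_ifs with h
    · obtain ⟨Y', h2, h3, h4⟩ := h.exists_below
      refine le_trans ?_ (single_le_sum (fun Y' _ => h0 Y' Y) (show Y' ∈ D by simp [hD, h2]))
      rw [if_pos h3, if_pos h4, abs_mul]
    · rw [abs_zero]
      exact sum_nonneg fun Y' _ => h0 Y' Y
  have h2 : ∀ Y', t Y' ^ 2 ≤ above g Y' * above g (X + Y') := by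
    intro Y'
    refine (sum_mul_sq_le_sq_mul_sq _ _ _).trans (le_of_eq ?_)
    rw [above, above, ← sum_add_left' _ X]
    congr 1
    · exact (sum_add_left' (fun Y => (if Below Y' Y then |coef g Y| else 0) ^ 2) X).trans
        (sum_congr rfl fun Y _ => by split_ifs <;> simp)
    · rw [← sum_add_left' (fun Y => if Below (X + Y') Y then coef g Y ^ 2 else 0) X]
      exact sum_congr rfl fun Y _ => by split_ifs <;> simp
  calc goodSum g X ^ 2 = |goodSum g X| ^ 2 := (sq_abs _).symm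
    _ ≤ (∑ Y' ∈ D, t Y') ^ 2 := pow_le_pow_left₀ (abs_nonneg _) h1 2
    _ ≤ D.card * ∑ Y' ∈ D, t Y' ^ 2 := sq_sum_le_card_mul_sum_sq
    _ ≤ _ := by
        refine mul_le_mul_of_nonneg_left ?_ (Nat.cast_nonneg _)
        refine (sum_le_sum fun Y' _ => h2 Y').trans ?_
        exact sum_le_sum_of_subset_of_nonneg (subset_univ _) fun Y' _ _ =>
          mul_nonneg (above_nonneg _ _) (above_nonneg _ _)

theorem tower_mono {a b : ℕ} (h : a ≤ b) : (2 ^ a) ^ (2 ^ a) ≤ (2 ^ b) ^ (2 ^ b) :=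
  (Nat.pow_le_pow_left (Nat.pow_le_pow_right (by norm_num) h) _).trans
    (Nat.pow_le_pow_right (by positivity) (Nat.pow_le_pow_right (by norm_num) h))

theorem sum_above_le {d : ℕ} {g : Matrix m n F → ℝ} (hg : ∀ X, d < X.rank → coef g X = 0) :
    ∑ Y', above g Y' ≤ (((2 ^ d) ^ (2 ^ d) : ℕ) : ℝ) * 𝔼 A, g A ^ 2 := by
  simp only [above]
  rw [sum_comm, ← parseval, mul_sum]
  refine sum_le_sum fun Y _ => ?_
  rw [← sum_filter, sum_const, nsmul_eq_mul]
  by_cases h : d < Y.rank
  · simp [hg Y h]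
  · refine mul_le_mul_of_nonneg_right ?_ (sq_nonneg _)
    exact_mod_cast (card_below Y).trans (tower_mono (not_lt.1 h))

theorem rank_add_le' (X Y : Matrix n m F) : (X + Y).rank ≤ X.rank + Y.rank := by
  simp only [Matrix.rank]
  refine le_trans (Submodule.finrank_mono ?_) (Submodule.finrank_add_le_finrank_add_finrank _ _)
  rintro _ ⟨w, rfl⟩
  rw [mulVecLin_apply, add_mulVec]
  exact Submodule.add_mem_sup (LinearMap.mem_range.2 ⟨w, rfl⟩) (LinearMap.mem_range.2 ⟨w, rfl⟩)

/-- Degree reduction. -/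
theorem fourth_le (d : ℕ) : ∃ C : ℝ, 0 ≤ C ∧ ∀ (m n : Type) [Fintype m] [Fintype n]
    [DecidableEq m] [DecidableEq n] (g : Matrix m n F → ℝ),
    (∀ X, d < X.rank → coef g X = 0) → 𝔼 A, g A ^ 4 ≤ C * (𝔼 A, g A ^ 2) ^ 2 +
      C * ∑ S ∈ univ.filter (fun S : Finset (At m n) => S ≠ ∅), 𝔼 A, LS S g A ^ 4 := by
  set M1 : ℝ := (((2 ^ d) ^ (2 ^ d) : ℕ) : ℝ) with hM1
  set M2 : ℝ := (((2 ^ (2 * d)) ^ (2 ^ (2 * d)) : ℕ) : ℝ) with hM2
  set N : ℝ := ((2 ^ (2 * 2 ^ (2 * d)) : ℕ) : ℝ) with hN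
  have hM1' : 0 ≤ M1 := Nat.cast_nonneg _
  have hM2' : 0 ≤ M2 := Nat.cast_nonneg _
  have hN' : 0 ≤ N := Nat.cast_nonneg _
  refine ⟨2 * M2 * M1 ^ 2 + 2 * N, by positivity, fun m n _ _ _ _ g hg => ?_⟩
  set NE := univ.filter (fun S : Finset (At m n) => S ≠ ∅) with hNE
  let b : Finset (At m n) → Matrix n m F → ℝ := fun S => coef (fun A => LS S g A * LS S g A)
  have h4 : ∀ h : Matrix m n F → ℝ, 𝔼 A, h A ^ 4 = ∑ X, coef (fun A => h A * h A) X ^ 2 := by
    intro h
    rw [parseval]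
    exact expect_congr rfl fun A _ => by ring
  have h1 : ∀ X, coef (fun A => g A * g A) X ^ 2 ≤
      2 * M2 * ∑ Y', above g Y' * above g (X + Y') + 2 * N * ∑ S ∈ NE, b S X ^ 2 := by
    intro X
    have hA : 0 ≤ ∑ Y', above g Y' * above g (X + Y') :=
      sum_nonneg fun Y' _ => mul_nonneg (above_nonneg _ _) (above_nonneg _ _)
    have hB : 0 ≤ ∑ S ∈ NE, b S X ^ 2 := sum_nonneg fun _ _ => sq_nonneg _
    by_cases hX : 2 * d < X.rank
    · have : coef (fun A => g A * g A) X = 0 := by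
        rw [coef_mul]
        refine sum_eq_zero fun Y _ => ?_
        by_cases hY : d < Y.rank
        · rw [hg Y hY, zero_mul]
        · have h2 := rank_add_le' (X + Y) Y
          rw [mat_add_cancel'] at h2
          rw [hg (X + Y) (by omega), mul_zero]
      rw [this]
      have h5 := mul_nonneg (mul_nonneg (by norm_num : (0 : ℝ) ≤ 2) hM2') hA
      have h6 := mul_nonneg (mul_nonneg (by norm_num : (0 : ℝ) ≤ 2) hN') hB
      simp only [ne_eq, OfNat.ofNat_ne_zero, not_false_eq_true, zero_pow]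
      linarith
    · rw [not_lt] at hX
      have h2 := incl_excl g X
      rw [← add_sum_erase _ _ (empty_mem_powerset _), LS_empty] at h2
      simp only [card_empty, pow_zero, one_mul] at h2
      set R := ∑ S ∈ (atoms X).powerset.erase ∅,
        (-1) ^ S.card * coef (fun A => LS S g A * LS S g A) X with hR
      have h3 : goodSum g X ^ 2 ≤ M2 * ∑ Y', above g Y' * above g (X + Y') := by
        refine (goodSum_sq_le g X).trans (mul_le_mul_of_nonneg_right ?_ hA)
        rw [hM2]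
        exact_mod_cast (card_below X).trans (tower_mono hX)
      have h5 : R ^ 2 ≤ N * ∑ S ∈ NE, b S X ^ 2 := by
        refine sq_sum_le_card_mul_sum_sq.trans (mul_le_mul ?_ ?_
          (sum_nonneg fun _ _ => sq_nonneg _) hN')
        · rw [hN]
          have h6 : ((atoms X).powerset.erase ∅).card ≤ 2 ^ (2 * 2 ^ (2 * d)) := by
            refine card_erase_le.trans ?_
            rw [card_powerset]
            refine Nat.pow_le_pow_right (by norm_num) ((card_atoms X).trans ?_)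
            exact Nat.mul_le_mul_left _ (Nat.pow_le_pow_right (by norm_num) hX)
          exact_mod_cast h6
        · refine le_trans (le_of_eq (sum_congr rfl fun S _ => ?_))
            (sum_le_sum_of_subset_of_nonneg (s := (atoms X).powerset.erase ∅) ?_
              fun _ _ _ => sq_nonneg _)
          · rw [mul_pow, ← pow_mul, mul_comm S.card, pow_mul]
            simp [b]
          · intro S hS
            simp [hNE, (mem_erase.1 hS).1]
      have h6 : coef (fun A => g A * g A) X = goodSum g X - R := by linarith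
      rw [h6]
      nlinarith [sq_nonneg (goodSum g X + R)]
  have h7 : ∑ X, ∑ Y', above g Y' * above g (X + Y') ≤ M1 ^ 2 * (𝔼 A, g A ^ 2) ^ 2 := by
    rw [sum_comm]
    simp only [← mul_sum, sum_add_right' (above g)]
    rw [← sum_mul, ← sq, ← mul_pow]
    exact pow_le_pow_left₀ (sum_nonneg fun _ _ => above_nonneg _ _) (sum_above_le hg) 2
  have h8 : ∑ X, ∑ S ∈ NE, b S X ^ 2 = ∑ S ∈ NE, 𝔼 A, LS S g A ^ 4 := by
    rw [sum_comm]
    exact sum_congr rfl fun S _ => (h4 _).symm
  have h9 : 0 ≤ ∑ S ∈ NE, 𝔼 A, LS S g A ^ 4 :=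
    sum_nonneg fun _ _ => expect_nonneg fun _ _ => by positivity
  rw [h4]
  refine (sum_le_sum fun X _ => h1 X).trans ?_
  rw [sum_add_distrib, ← mul_sum, ← mul_sum, h8]
  have h10 := mul_le_mul_of_nonneg_left h7 (by positivity : 0 ≤ 2 * M2)
  have h11 : 0 ≤ 2 * N * (𝔼 A, g A ^ 2) ^ 2 := by positivity
  have h12 : 0 ≤ 2 * M2 * M1 ^ 2 * ∑ S ∈ NE, 𝔼 A, LS S g A ^ 4 := by positivity
  nlinarith

end Vale.Agent.Lib.PCP.Bilin
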