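import Vale.Agent.Lib.PCP.Bilin.Glob
import Vale.Agent.Lib.PCP.Bilin.Good

/-!
Global hypercontractivity on the bilinear scheme and the level inequality.
-/

set_option linter.unusedSectionVars false

namespace Vale.Agent.Lib.PCP.Bilin

open Finset Matrix
open scoped BigOperators

variable {m n : Type} [Fintype m] [Fintype n] [DecidableEq m] [DecidableEq n]
variable {r : ℕ} {γ : ℝ} {f : Matrix m n F → ℝ}

theorem LS_insert (s : At m n) (S : Finset (At m n)) (g : Matrix m n F → ℝ) :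
    LS (insert s S) g = LS {s} (LS S g) := by
  refine ext_coef fun X => ?_
  simp only [coef_LS, insert_subset_iff, singleton_subset_iff]
  by_cases h1 : s ∈ atoms X <;> by_cases h2 : S ⊆ atoms X <;> simp [h1, h2]

theorem LS_inl {v : n → F} (hv : v ≠ 0) (g : Matrix m n F → ℝ) : LS {Sum.inl v} g = Lv v g := by
  refine ext_coef fun X => ?_
  simp only [coef_LS, Lv, coef_mult, singleton_subset_iff, mem_atoms, IsAt, hv, ne_eq,
    not_false_eq_true, true_and]
  split_ifs <;> simp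

theorem LS_inr {θ : m → F} (hθ : θ ≠ 0) (g : Matrix m n F → ℝ) (A : Matrix m n F) :
    LS {Sum.inr θ} g A = Lv θ (fun B : Matrix n m F => g Bᵀ) Aᵀ := by
  rw [← transpose_transpose A, LS, ← mult_transpose, transpose_transpose, Lv]
  congr 1
  ext X
  simp [mem_atoms, IsAt, hθ]

theorem coef_zero_fun (X : Matrix n m F) : coef (fun _ : Matrix m n F => (0 : ℝ)) X = 0 := by
  simp [coef]

theorem LS_inl_zero (g : Matrix m n F → ℝ) : LS {Sum.inl 0} g = fun _ => 0 := by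
  refine ext_coef fun X => ?_
  simp [coef_LS, mem_atoms, IsAt, coef_zero_fun]

theorem LS_inr_zero (g : Matrix m n F → ℝ) : LS {Sum.inr 0} g = fun _ => 0 := by
  refine ext_coef fun X => ?_
  simp [coef_LS, mem_atoms, IsAt, coef_zero_fun]

theorem lev_zero_fun (d : ℕ) : lev d (fun _ : Matrix m n F => (0 : ℝ)) = fun _ => 0 := by
  refine ext_coef fun X => ?_
  simp [coef_lev, coef_zero_fun]

theorem Glob.atom_lev (hf : Glob r γ f) (d : ℕ) (s : At m n) :
    ∃ h, Glob r ((2 + 8 * (2 ^ d) ^ 2) * γ) h ∧ LS {s} (lev d f) = lev d h := by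
  have hγ : 0 ≤ (2 + 8 * (2 ^ d) ^ 2) * γ := mul_nonneg (by positivity) hf.nonneg
  rcases s with v | θ
  · by_cases hv : v = 0
    · exact ⟨_, glob_zero r hγ, by rw [hv, LS_inl_zero, lev_zero_fun]⟩
    · exact ⟨_, hf.dv _ v, by rw [LS_inl hv, Lv_lev]⟩
  · by_cases hθ : θ = 0
    · exact ⟨_, glob_zero r hγ, by rw [hθ, LS_inr_zero, lev_zero_fun]⟩
    · refine ⟨_, (hf.transpose.dv (2 ^ d) θ).transpose, funext fun A => ?_⟩
      rw [LS_inr hθ, lev_transpose, ← Lv_lev]
      congr 1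
      ext B
      rw [lev_transpose]

theorem Glob.LS_lev (hf : Glob r γ f) (d : ℕ) (S : Finset (At m n)) :
    ∃ h, Glob r ((2 + 8 * (2 ^ d) ^ 2) ^ S.card * γ) h ∧ LS S (lev d f) = lev d h := by
  induction S using Finset.induction_on with
  | empty => exact ⟨f, by simpa using hf, LS_empty _⟩
  | insert s S hs ih =>
    obtain ⟨h, h1, h2⟩ := ih
    obtain ⟨h', h3, h4⟩ := h1.atom_lev d s
    refine ⟨h', ?_, by rw [LS_insert, h2, h4]⟩
    rwa [card_insert_of_notMem hs, pow_succ', mul_assoc]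

theorem Hyp.atom {d : ℕ} {C : ℝ} (H : Hyp m n d C) (H' : Hyp n m d C) (hf : Glob (d + 1) γ f)
    (s : At m n) : 𝔼 A, LS {s} (lev (d + 1) f) A ^ 4 ≤
      C * ((2 + 8 * (2 ^ d) ^ 2) * γ) * 𝔼 A, LS {s} (lev (d + 1) f) A ^ 2 := by
  rcases s with v | θ
  · by_cases hv : v = 0
    · simp [hv, LS_inl_zero]
    · rw [LS_inl hv]
      exact H.Lv hv hf
  · by_cases hθ : θ = 0
    · simp [hθ, LS_inr_zero]
    · have h1 := H'.Lv hθ hf.transpose
      have h2 : lev (d + 1) (fun B : Matrix n m F => f Bᵀ) = fun B => lev (d + 1) f Bᵀ :=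
        funext fun B => lev_transpose _ _ _
      simp only [LS_inr hθ]
      rw [expect_transpose (fun A => Bilin.Lv θ (fun B : Matrix n m F => lev (d + 1) f Bᵀ) A ^ 4),
        expect_transpose (fun A => Bilin.Lv θ (fun B : Matrix n m F => lev (d + 1) f Bᵀ) A ^ 2),
        ← h2]
      exact h1

theorem LS_lev_eq_zero {d : ℕ} {S : Finset (At m n)} (hS : 2 * 2 ^ d < S.card)
    (f : Matrix m n F → ℝ) : LS S (lev d f) = fun _ => 0 := by
  refine ext_coef fun X => ?_
  rw [coef_LS, coef_lev, coef_zero_fun]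
  split_ifs with h1 h2
  · have := (card_le_card h1).trans (card_atoms X)
    rw [h2] at this
    omega
  · rfl
  · rfl

theorem atoms_eq_empty {X : Matrix n m F} (h : X.rank = 0) : atoms X = ∅ := by
  have key : ∀ {m n : Type} [Fintype m] [Fintype n] [DecidableEq m] [DecidableEq n]
      (X : Matrix n m F), X.rank = 0 → ∀ v, InIm X v → v = 0 := by
    intro m n _ _ _ _ X h v hv
    have h1 := card_im X
    rw [h, pow_zero] at h1
    exact card_le_one.1 h1.le v (by simpa using hv) 0 (by simpa using ⟨0, by simp⟩)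
  refine eq_empty_of_forall_notMem fun s hs => ?_
  rw [mem_atoms] at hs
  rcases s with v | θ
  · exact hs.1 (key X h v hs.2)
  · exact hs.1 (key Xᵀ (by rwa [rank_transpose]) θ hs.2)

theorem expect_lev_sq_le (d : ℕ) (f : Matrix m n F → ℝ) :
    𝔼 A, lev d f A ^ 2 ≤ 𝔼 A, f A ^ 2 := by
  rw [← parseval, ← parseval]
  refine sum_le_sum fun X _ => ?_
  rw [coef_lev]
  split_ifs
  · exact le_rfl
  · simpa using sq_nonneg _

theorem sum_LS_sq_le (d : ℕ) (f : Matrix m n F → ℝ) :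
    ∑ S : Finset (At m n), 𝔼 A, LS S (lev d f) A ^ 2 ≤
      ((2 ^ (2 * 2 ^ d) : ℕ) : ℝ) * 𝔼 A, lev d f A ^ 2 := by
  simp only [← parseval]
  rw [sum_comm, mul_sum]
  refine sum_le_sum fun X _ => ?_
  have h1 : ∀ S : Finset (At m n), coef (LS S (lev d f)) X ^ 2 =
      if S ∈ (atoms X).powerset then coef (lev d f) X ^ 2 else 0 := by
    intro S
    rw [coef_LS]
    simp only [mem_powerset]
    split_ifs <;> simp
  simp only [h1]
  rw [sum_ite_mem, univ_inter, sum_const, card_powerset, nsmul_eq_mul]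
  by_cases h : X.rank = d
  · refine mul_le_mul_of_nonneg_right ?_ (sq_nonneg _)
    have h2 := card_atoms X
    rw [h] at h2
    exact_mod_cast Nat.pow_le_pow_right (by norm_num) h2
  · simp [coef_lev, h]

theorem hyp_of_LS (d : ℕ) {C' : ℝ} (hC' : 0 ≤ C')
    (H : ∀ (m n : Type) [Fintype m] [Fintype n] [DecidableEq m] [DecidableEq n]
      (f : Matrix m n F → ℝ) (γ : ℝ), Glob d γ f → ∀ S : Finset (At m n), S ≠ ∅ →
      𝔼 A, LS S (lev d f) A ^ 4 ≤ C' * γ * 𝔼 A, LS S (lev d f) A ^ 2) :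
    ∃ C : ℝ, 0 ≤ C ∧ ∀ (m n : Type) [Fintype m] [Fintype n] [DecidableEq m] [DecidableEq n],
      Hyp m n d C := by
  obtain ⟨C, hC, h⟩ := fourth_le d
  set N : ℝ := ((2 ^ (2 * 2 ^ d) : ℕ) : ℝ) with hN
  have hN' : 0 ≤ N := Nat.cast_nonneg _
  refine ⟨C + C * C' * N, by positivity, fun m n _ _ _ _ f γ hf => ?_⟩
  have hγ := hf.nonneg
  have h1 := h m n (lev d f) fun X hX => by rw [coef_lev, if_neg hX.ne']
  have h2 : 𝔼 A, lev d f A ^ 2 ≤ γ := (expect_lev_sq_le d f).trans hf.expect_sq_le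
  have h3 : 0 ≤ 𝔼 A, lev d f A ^ 2 := expect_nonneg fun _ _ => sq_nonneg _
  have h4 : ∑ S ∈ univ.filter (fun S : Finset (At m n) => S ≠ ∅), 𝔼 A, LS S (lev d f) A ^ 4 ≤
      C' * γ * (N * 𝔼 A, lev d f A ^ 2) := by
    refine (sum_le_sum fun S hS => H m n f γ hf S (mem_filter.1 hS).2).trans ?_
    rw [← mul_sum]
    refine mul_le_mul_of_nonneg_left (le_trans ?_ (sum_LS_sq_le d f)) (by positivity)
    exact sum_le_sum_of_subset_of_nonneg (subset_univ _) fun _ _ _ =>
      expect_nonneg fun _ _ => sq_nonneg _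
  have h5 := mul_le_mul_of_nonneg_left h4 hC
  have h6 : C * (𝔼 A, lev d f A ^ 2) ^ 2 ≤ C * (γ * 𝔼 A, lev d f A ^ 2) := by
    refine mul_le_mul_of_nonneg_left ?_ hC
    rw [sq]
    exact mul_le_mul_of_nonneg_right h2 h3
  nlinarith

/-- Global hypercontractivity: the level `d` part of a global function has a small fourth
moment. -/
theorem hyp (d : ℕ) : ∃ C : ℝ, 0 ≤ C ∧
    ∀ (m n : Type) [Fintype m] [Fintype n] [DecidableEq m] [DecidableEq n], Hyp m n d C := by
  induction d with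
  | zero =>
    refine hyp_of_LS 0 le_rfl fun m n _ _ _ _ f γ _ S hS => ?_
    have : LS S (lev 0 f) = fun _ => 0 := by
      refine ext_coef fun X => ?_
      rw [coef_LS, coef_lev, coef_zero_fun]
      split_ifs with h1 h2
      · rw [atoms_eq_empty h2, subset_empty] at h1
        exact absurd h1 hS
      · rfl
      · rfl
    simp [this]
  | succ d ih =>
    obtain ⟨C, hC, H⟩ := ih
    set K : ℝ := 2 + 8 * (2 ^ (d + 1)) ^ 2 with hK
    have hK1 : 1 ≤ K := by
      have : (0 : ℝ) ≤ 8 * (2 ^ (d + 1)) ^ 2 := by positivity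
      linarith
    refine hyp_of_LS (d + 1) (C' := C * ((2 + 8 * (2 ^ d) ^ 2) * K ^ (2 * 2 ^ (d + 1))))
      (by positivity) fun m n _ _ _ _ f γ hf S hS => ?_
    by_cases hc : 2 * 2 ^ (d + 1) < S.card
    · simp [LS_lev_eq_zero hc]
    obtain ⟨s, hs⟩ := nonempty_iff_ne_empty.2 hS
    obtain ⟨h, h1, h2⟩ := hf.LS_lev (d + 1) (S.erase s)
    rw [← insert_erase hs, LS_insert, h2]
    refine ((H m n).atom (H n m) h1 s).trans (mul_le_mul_of_nonneg_right ?_
      (expect_nonneg fun _ _ => sq_nonneg _))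
    rw [mul_assoc C, mul_assoc]
    refine mul_le_mul_of_nonneg_left (mul_le_mul_of_nonneg_left
      (mul_le_mul_of_nonneg_right ?_ hf.nonneg) (by positivity)) hC
    exact pow_le_pow_right₀ hK1 (card_erase_le.trans (not_lt.1 hc))

/-- The level inequality for bounded global functions. -/
theorem level_ineq (d : ℕ) : ∃ K : ℝ, 0 ≤ K ∧
    ∀ (m n : Type) [Fintype m] [Fintype n] [DecidableEq m] [DecidableEq n]
      (f : Matrix m n F → ℝ) (γ : ℝ), (∀ A, |f A| ≤ 1) → Glob d γ f →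
      (𝔼 A, lev d f A ^ 2) ^ 3 ≤ K * γ * (𝔼 A, |f A|) ^ 3 := by
  obtain ⟨C, hC, H⟩ := hyp d
  refine ⟨C, hC, fun m n _ _ _ _ f γ hb hf => ?_⟩
  have h0 := H m n f γ hf
  set g := lev d f with hg
  set x := 𝔼 A, g A ^ 2 with hx
  set μ := 𝔼 A, |f A| with hμ
  have hμ0 : 0 ≤ μ := expect_nonneg fun _ _ => abs_nonneg _
  have hx0 : 0 ≤ x := expect_nonneg fun _ _ => sq_nonneg _
  have h1 : x = 𝔼 A, g A * f A := by
    rw [hx, ← parseval, plancherel]
    refine sum_congr rfl fun X _ => ?_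
    rw [hg, coef_lev]
    split_ifs <;> simp [sq]
  have h2 : x ≤ 𝔼 A, (|g A| * √|f A|) * √|f A| := by
    rw [h1]
    refine expect_le_expect fun A _ => ?_
    rw [mul_assoc, Real.mul_self_sqrt (abs_nonneg _), ← abs_mul]
    exact le_abs_self _
  have h3 : x ^ 2 ≤ (𝔼 A, g A ^ 2 * |f A|) * μ := by
    refine (pow_le_pow_left₀ hx0 h2 2).trans ((expect_mul_sq_le_sq_mul_sq _ _ _).trans
      (le_of_eq ?_))
    simp only [mul_pow, sq_abs, Real.sq_sqrt (abs_nonneg _), hμ]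
  have h4 : (𝔼 A, g A ^ 2 * |f A|) ^ 2 ≤ (𝔼 A, g A ^ 4) * μ := by
    refine (expect_mul_sq_le_sq_mul_sq _ _ _).trans ?_
    simp only [← pow_mul]
    refine mul_le_mul_of_nonneg_left (expect_le_expect fun A _ => ?_)
      (expect_nonneg fun A _ => by rw [pow_mul]; exact sq_nonneg _)
    nlinarith [hb A, abs_nonneg (f A)]
  have h5 : x ^ 4 ≤ C * γ * x * μ ^ 3 := by
    calc x ^ 4 = (x ^ 2) ^ 2 := by ring
      _ ≤ ((𝔼 A, g A ^ 2 * |f A|) * μ) ^ 2 := pow_le_pow_left₀ (sq_nonneg _) h3 2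
      _ = (𝔼 A, g A ^ 2 * |f A|) ^ 2 * μ ^ 2 := by ring
      _ ≤ ((𝔼 A, g A ^ 4) * μ) * μ ^ 2 := mul_le_mul_of_nonneg_right h4 (sq_nonneg _)
      _ = (𝔼 A, g A ^ 4) * μ ^ 3 := by ring
      _ ≤ _ := mul_le_mul_of_nonneg_right h0 (by positivity)
  rcases hx0.eq_or_lt with h | h
  · rw [← h]
    have := hf.nonneg
    simp only [ne_eq, OfNat.ofNat_ne_zero, not_false_eq_true, zero_pow]
    positivity
  · refine le_of_mul_le_mul_left ?_ h
    calc x * x ^ 3 = x ^ 4 := by ring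
      _ ≤ _ := h5
      _ = _ := by ring

end Vale.Agent.Lib.PCP.Bilin
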